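import Vale.Agent.P066.Theta.H863.UnitRatio
import Vale.Agent.P066.Theta.Dilog
import Vale.Agent.P066.Theta.H615.Chart

/-!
# Ratios of wall functions of positive type
-/

set_option autoImplicit false

open Finset

namespace Vale.Agent.P066.Theta

noncomputable section

open QSeries UR

variable {r : ℕ} {B : Matrix (Fin r) (Fin r) ℤ}

/-- On the ray of `b` the product is the product of power series in one variable. -/
theorem line_mul_line (hB : B.transpose = -B) {b : Fin r →₀ ℕ} (hb : b ≠ 0) (P F : PowerSeries K) :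
    Dil.line B b (fun n => PowerSeries.coeff n P) * Dil.line B b (fun n => PowerSeries.coeff n F)
      = Dil.line B b (fun n => PowerSeries.coeff n (P * F)) := by
  classical
  ext γ
  rw [QSeries.mul_apply]
  by_cases h : ∃ n : ℕ, n • b = γ
  · obtain ⟨n, rfl⟩ := h
    rw [Dil.line_smul_apply hb, PowerSeries.coeff_mul]
    have hinj : Set.InjOn (fun p : ℕ × ℕ => ((p.1 • b, p.2 • b) : (Fin r →₀ ℕ) × (Fin r →₀ ℕ)))
        (antidiagonal n : Finset (ℕ × ℕ)) := by
      rintro ⟨a, c⟩ _ ⟨a', c'⟩ _ h
      simp only [Prod.mk.injEq] at h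
      rw [(Dil.smul_inj hb).1 h.1, (Dil.smul_inj hb).1 h.2]
    symm
    calc ∑ p ∈ antidiagonal n, PowerSeries.coeff p.1 P * PowerSeries.coeff p.2 F
        = ∑ p ∈ antidiagonal n, v ^ omega B (toZ (p.1 • b)) (toZ (p.2 • b)) *
            Dil.line B b (fun n => PowerSeries.coeff n P) (p.1 • b) *
            Dil.line B b (fun n => PowerSeries.coeff n F) (p.2 • b) := by
          refine sum_congr rfl fun p _ => ?_
          rw [Dil.line_smul_apply hb, Dil.line_smul_apply hb, Dil.omega_smul_left,
            Dil.omega_smul_right, omega_self hB]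
          simp
      _ = ∑ q ∈ (antidiagonal n).image
            (fun p : ℕ × ℕ => ((p.1 • b, p.2 • b) : (Fin r →₀ ℕ) × (Fin r →₀ ℕ))),
            v ^ omega B (toZ q.1) (toZ q.2) *
            Dil.line B b (fun n => PowerSeries.coeff n P) q.1 *
            Dil.line B b (fun n => PowerSeries.coeff n F) q.2 := by
          rw [sum_image hinj]
      _ = _ := by
          refine sum_subset ?_ ?_
          · intro q hq
            rw [mem_image] at hq
            obtain ⟨p, hp, rfl⟩ := hq
            rw [HasAntidiagonal.mem_antidiagonal] at hp ⊢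
            rw [← add_smul, hp]
          · rintro ⟨x, y⟩ hq hq'
            rw [HasAntidiagonal.mem_antidiagonal] at hq
            simp only at hq
            by_cases hx : ∃ i : ℕ, i • b = x
            · by_cases hy : ∃ j : ℕ, j • b = y
              · exfalso
                obtain ⟨i, rfl⟩ := hx
                obtain ⟨j, rfl⟩ := hy
                apply hq'
                rw [← add_smul] at hq
                rw [mem_image]
                exact ⟨(i, j), by
                  rw [HasAntidiagonal.mem_antidiagonal]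
                  exact (Dil.smul_inj hb).1 hq, rfl⟩
              · push Not at hy
                rw [Dil.line_apply_of_not (B := B) (γ := y) _ hy, mul_zero]
            · push Not at hx
              rw [Dil.line_apply_of_not (B := B) (γ := x) _ hx, mul_zero, zero_mul]
  · push Not at h
    rw [Dil.line_apply_of_not _ h, sum_eq_zero]
    rintro ⟨x, y⟩ hq
    rw [HasAntidiagonal.mem_antidiagonal] at hq
    simp only at hq
    by_cases hx : ∃ i : ℕ, i • b = x
    · by_cases hy : ∃ j : ℕ, j • b = y
      · exfalso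
        obtain ⟨i, rfl⟩ := hx
        obtain ⟨j, rfl⟩ := hy
        exact h (i + j) (by rw [add_smul]; exact hq)
      · push Not at hy
        rw [Dil.line_apply_of_not (B := B) (γ := y) _ hy, mul_zero]
    · push Not at hx
      rw [Dil.line_apply_of_not (B := B) (γ := x) _ hx, mul_zero, zero_mul]

private theorem ray_deg_mono {a b : Fin r →₀ ℕ} (h : a ≤ b) : deg a ≤ deg b :=
  sum_le_sum fun i _ => h i

private theorem ray_deg_smul (n : ℕ) (b : Fin r →₀ ℕ) : deg (n • b) = n * deg b := by
  simp [deg, mul_sum]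

/-- If the wall function `g0` is, up to degree `D`, a product of units on the ray of `b`, then the
coefficients of `g0(v^{2c} x) / g0(x)` are in `S ⊇ v^ℤ`. -/
theorem ratio_mem_of_posRay (hB : B.transpose = -B) {S : Subsemiring K}
    (hv : ∀ n : ℤ, v ^ n ∈ S) {D : ℕ} {b : Fin r →₀ ℕ} (hb : b ≠ 0) {g0 : QSeries B}
    (h0 : g0 0 = 1) (hsupp : ∀ e, deg e ≤ D → g0 e ≠ 0 → ∃ n : ℕ, e = n • b)
    (hpos : PosRay D b g0) {s : Fin r → ℤ} (hs : 0 ≤ wt s b) {R : QSeries B}
    (hR : R * g0 = twist s g0) {e : Fin r →₀ ℕ} (he : deg e ≤ D) : R e ∈ S := by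
  obtain ⟨l, hl, hF⟩ := hpos
  obtain ⟨c, hc⟩ := Int.eq_ofNat_of_zero_le hs
  obtain ⟨P, hP, hP'⟩ := unit_list_ratio hv l hl c
  set F : PowerSeries K := (l.map unitSeries).prod with hFdef
  -- the model of `g0`
  have hag : Agree e g0 (Dil.line B b fun n => PowerSeries.coeff n F) := by
    intro η hη
    have hη' : deg η ≤ D := (ray_deg_mono hη).trans he
    by_cases h : ∃ n : ℕ, n • b = η
    · obtain ⟨n, rfl⟩ := h
      rw [Dil.line_smul_apply hb]
      exact hF n (by rw [← ray_deg_smul]; exact hη')
    · have h' := h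
      push Not at h'
      rw [Dil.line_apply_of_not _ h']
      by_contra h1
      obtain ⟨n, hn⟩ := hsupp η hη' h1
      exact h ⟨n, hn.symm⟩
  -- the model of the ratio
  have hmod : Dil.line B b (fun n => PowerSeries.coeff n P) *
      Dil.line B b (fun n => PowerSeries.coeff n F)
      = twist s (Dil.line B b fun n => PowerSeries.coeff n F) := by
    rw [line_mul_line hB hb, hP', Dil.twist_line s hb]
    refine Dil.line_congr b fun n => ?_
    rw [PowerSeries.coeff_rescale, ← pow_mul, ← zpow_natCast, hc]
    congr 2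
    push_cast
    ring
  have h1 : Agree e (Dil.line B b (fun n => PowerSeries.coeff n P) * g0) (R * g0) := by
    rw [hR]
    refine (Agree.mul Agree.rfl' hag).trans ?_
    rw [hmod]
    exact hag.symm.twist s
  have hu : IsUnit g0 := isUnit_of_one h0
  have h2 : Agree e (Dil.line B b (fun n => PowerSeries.coeff n P)) R := by
    have h3 := h1.mul (Agree.rfl' (γ := e) (F := Ring.inverse g0))
    rwa [mul_assoc, mul_assoc, Ring.mul_inverse_cancel _ hu, mul_one, mul_one] at h3
  rw [← h2 e le_rfl]
  by_cases h : ∃ n : ℕ, n • b = e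
  · obtain ⟨n, rfl⟩ := h
    rw [Dil.line_smul_apply hb]
    exact hP n
  · push Not at h
    rw [Dil.line_apply_of_not _ h]
    exact S.zero_mem

/-- **Wall positivity gives positivity of the ratios of the wall functions.** -/
theorem ratio_mem_of_wallPos (hB : B.transpose = -B) {S : Subsemiring K}
    (hv : ∀ n : ℤ, v ^ n ∈ S) {g : QSeries B} (hg : WallPos g) (D : ℕ) (Q : Fin r → ℤ)
    (b : Fin r →₀ ℕ) (hb : b ≠ 0) (hQ : IsWallAt Q D b) (gp g0 gm : QSeries B)
    (hT : IsTriple g gp g0 gm Q) (s : Fin r → ℤ) (hs : 0 ≤ wt s b) (R : QSeries B)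
    (hR : R * g0 = twist s g0) (e : Fin r →₀ ℕ) (he : deg e ≤ D) : R e ∈ S := by
  refine ratio_mem_of_posRay hB hv hb hT.g0_zero ?_ (hg D Q b hb hQ gp g0 gm hT) hs hR he
  intro e' he' h'
  by_cases h0 : e' = 0
  · exact ⟨0, by rw [h0, zero_smul]⟩
  · exact hQ.2 e' h0 he' (hT.g0_supp e' h')

end

end Vale.Agent.P066.Theta
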