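import Vale.Agent.P066.Theta.Uncond
import Vale.Agent.P066.Theta.Comb.Pos

/-!
# Ratios `F(v^{2c} T) / F(T)` of products of units have coefficients in `ℕ[v, v⁻¹]`
-/

set_option autoImplicit false

open Finset PowerSeries

namespace Vale.Agent.P066.Theta

noncomputable section

/-- Laurent polynomials in `v` with coefficients in `ℕ`, as a subsemiring of `ℚ(v)`. -/
def posSemiring : Subsemiring K where
  carrier := {a | Pos a}
  zero_mem' := Pos.zero
  one_mem' := Pos.one
  add_mem' := fun ha hb => Pos.add ha hb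
  mul_mem' := fun ha hb => Pos.mul ha hb

theorem mem_posSemiring {a : K} : a ∈ posSemiring ↔ Pos a := Iff.rfl

theorem zpow_mem_posSemiring (n : ℤ) : v ^ n ∈ posSemiring := Pos.zpow n

namespace UR

/-- Power series with coefficients in a subsemiring. -/
def psIn (S : Subsemiring K) : Subsemiring (PowerSeries K) where
  carrier := {P | ∀ n, coeff n P ∈ S}
  zero_mem' := fun n => by rw [map_zero]; exact S.zero_mem
  one_mem' := fun n => by
    rw [coeff_one]; split_ifs
    · exact S.one_mem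
    · exact S.zero_mem
  add_mem' := fun {a b} ha hb n => by rw [map_add]; exact S.add_mem (ha n) (hb n)
  mul_mem' := fun {a b} ha hb n => by
    rw [coeff_mul]
    exact S.sum_mem fun p _ => S.mul_mem (ha p.1) (hb p.2)

theorem mem_psIn {S : Subsemiring K} {P : PowerSeries K} : P ∈ psIn S ↔ ∀ n, coeff n P ∈ S :=
  Iff.rfl

theorem v_pow_ne_one {n : ℕ} (hn : 0 < n) : v ^ n ≠ 1 := by
  intro h
  have h1 : (RatFunc.X : RatFunc ℚ) ^ n = 1 := h
  have h2 : algebraMap (Polynomial ℚ) (RatFunc ℚ) (Polynomial.X ^ n)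
      = algebraMap (Polynomial ℚ) (RatFunc ℚ) 1 := by
    rw [map_pow, RatFunc.algebraMap_X, h1, map_one]
  have h3 := RatFunc.algebraMap_injective ℚ h2
  have h4 := congrArg Polynomial.natDegree h3
  rw [Polynomial.natDegree_X_pow, Polynomial.natDegree_one] at h4
  omega

/-- Coefficients of a unit. -/
theorem coeff_unitSeries_mul (e : Bool) (j : ℤ) {m : ℕ} (hm : 0 < m) (i : ℕ) :
    coeff (i * m) (unitSeries (e, j, m)) = epsCoeff e i * v ^ (j * (i : ℤ)) := by
  unfold unitSeries
  rw [coeff_mk, Finset.sum_eq_single i]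
  · simp
  · intro b _ hb
    rw [if_neg]
    intro h
    exact hb (Nat.eq_of_mul_eq_mul_right hm h)
  · intro hi
    exfalso
    apply hi
    rw [mem_range]
    have := Nat.le_mul_of_pos_right i hm
    omega

theorem coeff_unitSeries_of_not_dvd (e : Bool) (j : ℤ) {m n : ℕ} (hn : ¬ m ∣ n) :
    coeff n (unitSeries (e, j, m)) = 0 := by
  unfold unitSeries
  rw [coeff_mk, Finset.sum_eq_zero]
  intro i _
  rw [if_neg]
  intro h
  exact hn ⟨i, by rw [mul_comm]; exact h.symm⟩

theorem ext_dvd {m : ℕ} {F G : PowerSeries K} (h : ∀ i, coeff (i * m) F = coeff (i * m) G)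
    (h' : ∀ n, ¬ m ∣ n → coeff n F = coeff n G) : F = G := by
  ext n
  by_cases hn : m ∣ n
  · obtain ⟨i, rfl⟩ := hn
    rw [mul_comm]
    exact h i
  · exact h' n hn

/-- Rescaling `T ↦ v^{2c} T`. -/
theorem rescale_unitSeries (e : Bool) (j : ℤ) {m : ℕ} (hm : 0 < m) (c : ℕ) :
    rescale (v ^ (2 * c)) (unitSeries (e, j, m)) = unitSeries (e, j + 2 * (c * m : ℕ), m) := by
  apply ext_dvd (m := m)
  · intro i
    rw [coeff_rescale, coeff_unitSeries_mul e j hm, coeff_unitSeries_mul e _ hm]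
    have h : (v ^ (2 * c)) ^ (i * m) = v ^ ((2 * (c * m : ℕ) : ℤ) * (i : ℤ)) := by
      rw [← pow_mul, ← zpow_natCast]
      congr 1
      push_cast
      ring
    rw [h, add_mul, zpow_add₀ v_ne_zero]
    ring
  · intro n hn
    rw [coeff_rescale, coeff_unitSeries_of_not_dvd e j hn, coeff_unitSeries_of_not_dvd e _ hn,
      mul_zero]

/-- `1 + a T^m` times a series. -/
theorem coeff_binom_mul (a : K) {m : ℕ} (F : PowerSeries K) (n : ℕ) :
    coeff n ((1 + C a * X ^ m) * F) = coeff n F + (if m ≤ n then a * coeff (n - m) F else 0) := by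
  rw [add_mul, one_mul, map_add, mul_assoc, coeff_C_mul, coeff_X_pow_mul']
  split_ifs <;> simp

theorem psi_succ (n : ℕ) : (v ^ (2 * (n + 1)) - 1) * psi (n + 1) = v * psi n := by
  have h : v ^ (2 * (n + 1)) - 1 ≠ 0 := sub_ne_zero.mpr (v_pow_ne_one (by omega))
  unfold psi
  rw [prod_range_succ]
  field_simp

theorem epsCoeff_true_succ (n : ℕ) :
    (v ^ (2 * (n + 1)) - 1) * epsCoeff true (n + 1) = v ^ (2 * (n + 1)) * epsCoeff true n := by
  have h : v ^ (2 * (n + 1)) - 1 ≠ 0 := sub_ne_zero.mpr (v_pow_ne_one (by omega))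
  unfold epsCoeff
  simp only [if_true]
  rw [prod_range_succ]
  field_simp

theorem epsCoeff_zero (e : Bool) : epsCoeff e 0 = 1 := by
  cases e <;> simp [epsCoeff, psi]

/-- `Ψ(v² x) = (1 + v x) Ψ(x)`. -/
theorem unit_false_step (j : ℤ) {m : ℕ} (hm : 0 < m) :
    unitSeries (false, j + 2, m)
      = (1 + C (v ^ (j + 1)) * X ^ m) * unitSeries (false, j, m) := by
  apply ext_dvd (m := m)
  · intro i
    rw [coeff_unitSeries_mul _ _ hm, coeff_binom_mul, coeff_unitSeries_mul _ _ hm]
    rcases i with _ | i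
    · rw [if_neg (by omega)]
      simp
    · rw [if_pos (Nat.le_mul_of_pos_left m (Nat.succ_pos i))]
      have h1 : (i + 1) * m - m = i * m := by
        rw [Nat.succ_mul, Nat.add_sub_cancel]
      rw [h1, coeff_unitSeries_mul _ _ hm]
      have h2 := psi_succ i
      have h3 : epsCoeff false (i + 1) = psi (i + 1) := rfl
      have h4 : epsCoeff false i = psi i := rfl
      rw [h3, h4]
      have h5 : v ^ ((j + 2) * ((i + 1 : ℕ) : ℤ))
          = v ^ (j * ((i + 1 : ℕ) : ℤ)) * v ^ (2 * (i + 1)) := by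
        rw [← zpow_natCast v (2 * (i + 1)), ← zpow_add₀ v_ne_zero]
        congr 1
        push_cast
        ring
      have h6 : v ^ (j + 1) * v ^ (j * (i : ℤ)) = v ^ (j * ((i + 1 : ℕ) : ℤ)) * v := by
        rw [← zpow_add₀ v_ne_zero, ← zpow_add_one₀ v_ne_zero]
        congr 1
        push_cast
        ring
      rw [h5]
      linear_combination v ^ (j * ((i + 1 : ℕ) : ℤ)) * h2 - psi i * h6
  · intro n hn
    rw [coeff_unitSeries_of_not_dvd _ _ hn, coeff_binom_mul, coeff_unitSeries_of_not_dvd _ _ hn]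
    split_ifs with h
    · rw [coeff_unitSeries_of_not_dvd, mul_zero, add_zero]
      intro h'
      apply hn
      have := Nat.dvd_add h' (dvd_refl m)
      rwa [Nat.sub_add_cancel h] at this
    · rw [add_zero]

/-- `E(x) = (1 - v² x) E(v² x)` for `E(x) = ∏_{i ≥ 1} (1 - v^{2i} x)`. -/
theorem unit_true_step (j : ℤ) {m : ℕ} (hm : 0 < m) :
    unitSeries (true, j, m)
      = (1 + C (-v ^ (j + 2)) * X ^ m) * unitSeries (true, j + 2, m) := by
  apply ext_dvd (m := m)
  · intro i
    rw [coeff_unitSeries_mul _ _ hm, coeff_binom_mul, coeff_unitSeries_mul _ _ hm]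
    rcases i with _ | i
    · rw [if_neg (by omega)]
      simp
    · rw [if_pos (Nat.le_mul_of_pos_left m (Nat.succ_pos i))]
      have h1 : (i + 1) * m - m = i * m := by
        rw [Nat.succ_mul, Nat.add_sub_cancel]
      rw [h1, coeff_unitSeries_mul _ _ hm]
      have h2 := epsCoeff_true_succ i
      have h5 : v ^ ((j + 2) * ((i + 1 : ℕ) : ℤ))
          = v ^ (j * ((i + 1 : ℕ) : ℤ)) * v ^ (2 * (i + 1)) := by
        rw [← zpow_natCast v (2 * (i + 1)), ← zpow_add₀ v_ne_zero]
        congr 1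
        push_cast
        ring
      have h6 : v ^ (j + 2) * v ^ ((j + 2) * (i : ℤ))
          = v ^ (j * ((i + 1 : ℕ) : ℤ)) * v ^ (2 * (i + 1)) := by
        rw [← zpow_natCast v (2 * (i + 1)), ← zpow_add₀ v_ne_zero, ← zpow_add₀ v_ne_zero]
        congr 1
        push_cast
        ring
      rw [h5]
      linear_combination -v ^ (j * ((i + 1 : ℕ) : ℤ)) * h2 + epsCoeff true i * h6
  · intro n hn
    rw [coeff_unitSeries_of_not_dvd _ _ hn, coeff_binom_mul, coeff_unitSeries_of_not_dvd _ _ hn]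
    split_ifs with h
    · rw [coeff_unitSeries_of_not_dvd, mul_zero, add_zero]
      intro h'
      apply hn
      have := Nat.dvd_add h' (dvd_refl m)
      rwa [Nat.sub_add_cancel h] at this
    · rw [add_zero]

/-- The geometric series `1 / (1 - a T^m)`. -/
def geo (a : K) (m : ℕ) : PowerSeries K :=
  PowerSeries.mk fun n => if m ∣ n then a ^ (n / m) else 0

theorem geo_mul (a : K) {m : ℕ} (hm : 0 < m) : geo a m * (1 + C (-a) * X ^ m) = 1 := by
  rw [mul_comm]
  apply ext_dvd (m := m)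
  · intro i
    rw [coeff_binom_mul]
    unfold geo
    rw [coeff_mk, if_pos (Dvd.intro_left i rfl), Nat.mul_div_cancel i hm, coeff_one]
    rcases i with _ | i
    · rw [if_neg (by omega)]
      simp
    · have h0 : (i + 1) * m ≠ 0 := by positivity
      rw [if_pos (Nat.le_mul_of_pos_left m (Nat.succ_pos i)), if_neg h0]
      have h1 : (i + 1) * m - m = i * m := by
        rw [Nat.succ_mul, Nat.add_sub_cancel]
      rw [h1, coeff_mk, if_pos (Dvd.intro_left i rfl), Nat.mul_div_cancel i hm, pow_succ]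
      ring
  · intro n hn
    rw [coeff_binom_mul]
    unfold geo
    have hn0 : n ≠ 0 := by rintro rfl; exact hn (dvd_zero m)
    rw [coeff_mk, if_neg hn, coeff_one, if_neg hn0, zero_add]
    split_ifs with h
    · rw [coeff_mk, if_neg, mul_zero]
      intro h'
      apply hn
      have := Nat.dvd_add h' (dvd_refl m)
      rwa [Nat.sub_add_cancel h] at this
    · rfl

theorem geo_mem {S : Subsemiring K} {a : K} (ha : a ∈ S) (m : ℕ) : geo a m ∈ psIn S := by
  intro n
  unfold geo
  rw [coeff_mk]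
  split_ifs
  · exact S.pow_mem ha _
  · exact S.zero_mem

theorem binom_mem {S : Subsemiring K} {a : K} (ha : a ∈ S) (m : ℕ) :
    (1 + C a * X ^ m : PowerSeries K) ∈ psIn S := by
  refine (psIn S).add_mem (psIn S).one_mem ?_
  intro n
  rw [coeff_C_mul_X_pow]
  split_ifs
  · exact ha
  · exact S.zero_mem

/-- Ratios of one unit. -/
theorem unit_ratio_aux {S : Subsemiring K} (hv : ∀ n : ℤ, v ^ n ∈ S) (e : Bool) (j : ℤ) {m : ℕ}
    (hm : 0 < m) (N : ℕ) :
    ∃ P ∈ psIn S, P * unitSeries (e, j, m) = unitSeries (e, j + 2 * (N : ℕ), m) := by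
  induction N with
  | zero => exact ⟨1, (psIn S).one_mem, by simp⟩
  | succ N ih =>
    obtain ⟨P, hP, hP'⟩ := ih
    have hj : j + 2 * ((N + 1 : ℕ) : ℤ) = j + 2 * (N : ℕ) + 2 := by push_cast; ring
    rw [hj]
    cases e with
    | false =>
      refine ⟨(1 + C (v ^ (j + 2 * (N : ℕ) + 1)) * X ^ m) * P,
        (psIn S).mul_mem (binom_mem (hv _) m) hP, ?_⟩
      rw [mul_assoc, hP', ← unit_false_step _ hm]
    | true =>
      refine ⟨geo (v ^ (j + 2 * (N : ℕ) + 2)) m * P, (psIn S).mul_mem (geo_mem (hv _) m) hP, ?_⟩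
      rw [mul_assoc, hP', unit_true_step _ hm, ← mul_assoc, geo_mul _ hm, one_mul]

/-- **Ratios of units.** -/
theorem unit_ratio {S : Subsemiring K} (hv : ∀ n : ℤ, v ^ n ∈ S) (u : Bool × ℤ × ℕ)
    (hu : 0 < u.2.2) (c : ℕ) :
    ∃ P ∈ psIn S, P * unitSeries u = rescale (v ^ (2 * c)) (unitSeries u) := by
  obtain ⟨e, j, m⟩ := u
  obtain ⟨P, hP, hP'⟩ := unit_ratio_aux hv e j hu (c * m)
  exact ⟨P, hP, by rw [hP', rescale_unitSeries e j hu c]⟩

/-- **Ratios of products of units.** -/
theorem unit_list_ratio {S : Subsemiring K} (hv : ∀ n : ℤ, v ^ n ∈ S)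
    (l : List (Bool × ℤ × ℕ)) (hl : ∀ u ∈ l, 0 < u.2.2) (c : ℕ) :
    ∃ P ∈ psIn S, P * (l.map unitSeries).prod
      = rescale (v ^ (2 * c)) (l.map unitSeries).prod := by
  induction l with
  | nil => exact ⟨1, (psIn S).one_mem, by simp⟩
  | cons u l ih =>
    obtain ⟨P, hP, hP'⟩ := ih fun w hw => hl w (List.mem_cons_of_mem u hw)
    obtain ⟨R, hR, hR'⟩ := unit_ratio hv u (hl u List.mem_cons_self) c
    refine ⟨R * P, (psIn S).mul_mem hR hP, ?_⟩
    rw [List.map_cons, List.prod_cons, map_mul, ← hR', ← hP']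
    ring

theorem coeff_zero_unitSeries (u : Bool × ℤ × ℕ) (hu : 0 < u.2.2) :
    coeff 0 (unitSeries u) = 1 := by
  obtain ⟨e, j, m⟩ := u
  have h := coeff_unitSeries_mul e j hu 0
  rw [zero_mul] at h
  rw [h, epsCoeff_zero]
  simp

theorem coeff_zero_unit_list (l : List (Bool × ℤ × ℕ)) (hl : ∀ u ∈ l, 0 < u.2.2) :
    coeff 0 (l.map unitSeries).prod = 1 := by
  induction l with
  | nil => simp
  | cons u l ih =>
    have h1 := ih fun w hw => hl w (List.mem_cons_of_mem u hw)
    have h2 := coeff_zero_unitSeries u (hl u List.mem_cons_self)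
    rw [coeff_zero_eq_constantCoeff_apply] at h1 h2 ⊢
    rw [List.map_cons, List.prod_cons, map_mul, h1, h2, one_mul]

end UR

end

end Vale.Agent.P066.Theta
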